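import Vale.Agent.P033.Defs
import Vale.Agent.P033.Fold

/-! P033 (circulant Hadamard conjecture): projections of the first row of a circulant Hadamard
matrix that are symmetric. -/

namespace Vale.Agent.Results.P033.SymmetricProjections

open Vale.Agent.P033

/-- (1) If the `ℓ`-fold projection (to `ℤ/N`) of the first row of a circulant Hadamard matrix of
order `n = ℓ N` is symmetric about some centre, then every prime power exactly dividing `N` is at
most `4 ℓ`, and `N` divides `lcm (1, …, 4 ℓ)`.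
(2) For `n = 2 N > 4` the two-fold projection is never symmetric. -/
theorem result :
    (∀ (ℓ N : ℕ) [NeZero (ℓ * N)] [NeZero N] (h : ZMod (ℓ * N) → ℤ), IsCircHadRow h →
      (∃ s : ZMod N, ∀ j, proj ℓ N h (s - j) = proj ℓ N h j) →
        (∀ p e : ℕ, p.Prime → p ^ e ∣ N → ¬ p ^ (e + 1) ∣ N → p ^ e ≤ 4 * ℓ) ∧
          N ∣ (Finset.Icc 1 (4 * ℓ)).lcm id) ∧
    ∀ (N : ℕ) [NeZero (2 * N)] [NeZero N] (h : ZMod (2 * N) → ℤ), IsCircHadRow h → 2 < N →
      ¬ ∃ s : ZMod N, ∀ j, proj 2 N h (s - j) = proj 2 N h j :=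
  ⟨fun _ N _ _ _ hh hs => ⟨fun _ _ hp hd hnd => bound hh hs hp hd hnd,
    dvd_lcm (NeZero.ne N) (fun _ _ hp hd hnd => bound hh hs hp hd hnd)⟩,
    fun _ _ _ _ hh h2 hs => fold hh h2 hs⟩

end Vale.Agent.Results.P033.SymmetricProjections
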